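import Vale.Agent.Lib.P344.Core

namespace Vale.Agent.Lib.P344

open Module Polynomial

variable {n : ℕ}

lemma U_full_ge (hn : 2 ≤ n) {l : List (Fin n → ℂ)} {f : Fin n → ℂ} (hf : f ∈ l)
    (hfull : Full f) : n ≤ finrank ℚ (U l) + 1 := by
  let z : Fin n := ⟨0, by omega⟩
  have htop : (⊤ : Submodule ℚ (Fin n → ℚ)) ≤ U l ⊔ Submodule.span ℚ {Pi.single z 1} := by
    intro x _
    have hx : x = ∑ i, x i • (Pi.single i 1 : Fin n → ℚ) := by
      funext k
      simp [Finset.sum_apply, Pi.single_apply]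
    rw [hx]
    refine Submodule.sum_mem _ fun i _ => Submodule.smul_mem _ _ ?_
    have : (Pi.single i 1 : Fin n → ℚ) = dvec i z + Pi.single z 1 := by simp [dvec]
    rw [this]
    refine Submodule.add_mem _ (Submodule.mem_sup_left ?_)
      (Submodule.mem_sup_right (Submodule.subset_span rfl))
    exact Submodule.subset_span ⟨f, hf, i, z, hfull i, hfull z, rfl⟩
  have h1 := Submodule.finrank_mono htop
  have h2 := finrank_sup_singleton_le (U l) (Pi.single z 1 : Fin n → ℚ)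
  have h3 : finrank ℚ (⊤ : Submodule ℚ (Fin n → ℚ)) = n := by simp
  omega

/-- Row `j` of the Fourier matrix attached to `ζ`, for a natural number index. -/
def row (ζ : ℂ) (j : ℕ) : Fin n → ℂ := fun k => ζ ^ (j * (k : ℕ))

lemma row_full {ζ : ℂ} (hζ : ζ ≠ 0) (j : ℕ) : Full (row (n := n) ζ j) :=
  fun _ => pow_ne_zero _ hζ

lemma vander_det {ζ : ℂ} (hζ : IsPrimitiveRoot ζ n) :
    (Matrix.vandermonde (fun j : Fin n => ζ ^ (j : ℕ))).det ≠ 0 := by
  rw [Matrix.det_vandermonde_ne_zero_iff]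
  intro i j hij
  exact Fin.ext (hζ.pow_inj i.2 j.2 hij)

lemma vander_row (ζ : ℂ) (j : Fin n) :
    (Matrix.vandermonde (fun j : Fin n => ζ ^ (j : ℕ))) j = row ζ (j : ℕ) := by
  funext k
  simp [Matrix.vandermonde_apply, row, pow_mul]

lemma B_ge {ζ : ℂ} (hζ : IsPrimitiveRoot ζ n) (h0 : ζ ≠ 0) {l : List (Fin n → ℂ)}
    (hout : ∀ j : Fin n, row ζ (j : ℕ) ∈ l) : n ≤ finrank ℂ (B l) := by
  have hli := Matrix.linearIndependent_rows_of_det_ne_zero (vander_det hζ)
  have h1 := finrank_span_eq_card hli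
  have h2 : Submodule.span ℂ (Set.range fun i =>
      (Matrix.vandermonde (fun j : Fin n => ζ ^ (j : ℕ))) i) ≤ B l := by
    refine Submodule.span_le.mpr ?_
    rintro _ ⟨j, rfl⟩
    refine Submodule.subset_span ⟨?_, ?_⟩
    · show (Matrix.vandermonde (fun j : Fin n => ζ ^ (j : ℕ))) j ∈ l
      rw [vander_row]
      exact hout j
    · show Full ((Matrix.vandermonde (fun j : Fin n => ζ ^ (j : ℕ))) j)
      rw [vander_row]
      exact row_full h0 _
  have h3 := Submodule.finrank_mono h2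
  rw [h1, Fintype.card_fin] at h3
  exact h3

/-- The rational polynomial with coefficient vector `q`. -/
noncomputable def polyOf (q : Fin n → ℚ) : ℚ[X] := ∑ k : Fin n, C (q k) * X ^ (k : ℕ)

lemma aeval_polyOf (q : Fin n → ℚ) (ζ : ℂ) (j : ℕ) :
    aeval (ζ ^ j) (polyOf q) = ev (row ζ j) q := by
  simp only [polyOf, map_sum, map_mul, aeval_C, map_pow, aeval_X, ev_apply, row]
  refine Finset.sum_congr rfl fun k _ => ?_
  rw [pow_mul, mul_comm]
  simp

lemma conj_zero {ζ : ℂ} (hn : 0 < n) (hζ : IsPrimitiveRoot ζ n) (q : Fin n → ℚ) (j : ℕ)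
    (h : ev (row ζ (Nat.gcd j n)) q = 0) : ev (row ζ j) q = 0 := by
  set g := Nat.gcd j n with hg
  have hgn : g ∣ n := Nat.gcd_dvd_right j n
  have hgj : g ∣ j := Nat.gcd_dvd_left j n
  have hg0 : g ≠ 0 := by
    intro h0
    rw [h0] at hgn
    have := Nat.eq_zero_of_zero_dvd hgn
    omega
  have hp1 : IsPrimitiveRoot (ζ ^ g) (n / g) := hζ.pow_of_dvd hg0 hgn
  have hcop : Nat.Coprime (j / g) (n / g) :=
    Nat.coprime_div_gcd_div_gcd (Nat.pos_of_ne_zero hg0)
  have hp2 : IsPrimitiveRoot ((ζ ^ g) ^ (j / g)) (n / g) := hp1.pow_of_coprime _ hcop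
  have hpow : (ζ ^ g) ^ (j / g) = ζ ^ j := by
    rw [← pow_mul, Nat.mul_div_cancel' hgj]
  rw [hpow] at hp2
  have hpos : 0 < n / g := Nat.div_pos (Nat.le_of_dvd hn hgn) (Nat.pos_of_ne_zero hg0)
  have hm : minpoly ℚ (ζ ^ g) = minpoly ℚ (ζ ^ j) := by
    rw [← cyclotomic_eq_minpoly_rat hp1 hpos, ← cyclotomic_eq_minpoly_rat hp2 hpos]
  rw [← aeval_polyOf] at h ⊢
  obtain ⟨r, hr⟩ := minpoly.dvd ℚ (ζ ^ g) h
  rw [hr, hm, map_mul, minpoly.aeval, zero_mul]

lemma ev_all_zero {ζ : ℂ} (hζ : IsPrimitiveRoot ζ n) (q : Fin n → ℚ)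
    (h : ∀ j : Fin n, ev (row ζ (j : ℕ)) q = 0) : q = 0 := by
  have h1 : (Matrix.vandermonde (fun j : Fin n => ζ ^ (j : ℕ))).mulVec (fun k => (q k : ℂ)) = 0 := by
    funext j
    have := h j
    rw [ev_apply] at this
    simp only [Matrix.mulVec, dotProduct, Pi.zero_apply]
    rw [← this]
    refine Finset.sum_congr rfl fun k _ => ?_
    simp [Matrix.vandermonde_apply, row, pow_mul]
  have h2 := Matrix.eq_zero_of_mulVec_eq_zero (vander_det hζ) h1
  funext k
  have := congrFun h2 k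
  simpa using this

/-- Evaluation at the rows indexed by the divisors of `n`. -/
noncomputable def Psi (ζ : ℂ) : (Fin n → ℚ) →ₗ[ℚ] (n.divisors → ℂ) :=
  LinearMap.pi fun g => ev (row ζ (g : ℕ))

lemma Psi_inj {ζ : ℂ} (hn : 0 < n) (hζ : IsPrimitiveRoot ζ n) :
    Function.Injective (Psi (n := n) ζ) := by
  rw [← LinearMap.ker_eq_bot, LinearMap.ker_eq_bot']
  intro q hq
  refine ev_all_zero hζ q fun j => conj_zero hn hζ q j ?_
  have hmem : Nat.gcd j n ∈ n.divisors :=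
    Nat.mem_divisors.mpr ⟨Nat.gcd_dvd_right _ _, by omega⟩
  exact congrFun hq ⟨_, hmem⟩

/-- Coordinatewise cast. -/
noncomputable def castMap : (n.divisors → ℚ) →ₗ[ℚ] (n.divisors → ℂ) where
  toFun t := fun g => (t g : ℂ)
  map_add' a b := by
    funext g
    simp
  map_smul' c a := by
    funext g
    simp [Rat.smul_def]

lemma mem_RatC {z : ℂ} (hz : z ∈ RatC) : ∃ t : ℚ, z = (t : ℂ) := by
  obtain ⟨t, rfl⟩ := Submodule.mem_span_singleton.mp hz
  exact ⟨t, by simp [Rat.smul_def]⟩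

lemma row_n {ζ : ℂ} (hζ : IsPrimitiveRoot ζ n) : row (n := n) ζ n = row ζ 0 := by
  funext k
  simp [row, pow_mul, hζ.pow_eq_one]

lemma R_le {ζ : ℂ} (hn : 0 < n) (hζ : IsPrimitiveRoot ζ n) {l : List (Fin n → ℂ)}
    (hout : ∀ j : Fin n, row ζ (j : ℕ) ∈ l) : finrank ℚ (R l) ≤ n.divisors.card := by
  have h1 : finrank ℚ (R l) = finrank ℚ ((R l).map (Psi ζ)) :=
    (LinearEquiv.finrank_eq (Submodule.equivMapOfInjective _ (Psi_inj hn hζ) (R l)))
  have h2 : (R l).map (Psi ζ) ≤ LinearMap.range (castMap (n := n)) := by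
    rintro _ ⟨q, hq, rfl⟩
    have hval : ∀ g : n.divisors, ∃ t : ℚ, ev (row ζ (g : ℕ)) q = (t : ℂ) := by
      intro g
      have hg := Nat.mem_divisors.mp g.2
      have hle : (g : ℕ) ≤ n := Nat.le_of_dvd hn hg.1
      rcases Nat.lt_or_ge (g : ℕ) n with hlt | hge
      · exact mem_RatC (hq _ (hout ⟨g, hlt⟩))
      · have : (g : ℕ) = n := le_antisymm hle hge
        rw [this, row_n hζ]
        exact mem_RatC (hq _ (hout ⟨0, hn⟩))
    choose t ht using hval
    refine ⟨t, ?_⟩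
    funext g
    exact (ht g).symm
  have h3 := Submodule.finrank_mono h2
  have h4 := LinearMap.finrank_range_le (castMap (n := n))
  have h5 : finrank ℚ (n.divisors → ℚ) = n.divisors.card := by simp
  omega

theorem vec_bound (hn : 2 ≤ n) {ζ : ℂ} (hζ : IsPrimitiveRoot ζ n) {l : List (Fin n → ℂ)}
    (hl : VCirc l) (hout : ∀ j : Fin n, VAvail l (row ζ (j : ℕ))) :
    3 * n ≤ l.length + n.divisors.card + 2 := by
  classical
  have h0 : ζ ≠ 0 := hζ.ne_zero (by omega)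
  have hmem : ∀ j : Fin n, row ζ (j : ℕ) ∈ l :=
    fun j => full_avail_mem hn (hout j) (row_full h0 _)
  have hinv := invariant hn hl
  have hex : ∃ f ∈ l, Full f := ⟨_, hmem ⟨0, by omega⟩, row_full h0 _⟩
  rw [if_pos hex] at hinv
  have h1 := U_full_ge hn (hmem ⟨0, by omega⟩) (row_full h0 _)
  have h2 := B_ge hζ h0 hmem
  have h3 := R_le (by omega) hζ hmem
  omega

end Vale.Agent.Lib.P344
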