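import Vale.Agent.Lib.P344.Defs
import Vale.Agent.Lib.P344.Dft

namespace Vale.Agent.Lib.P344

variable {n : ℕ}

/-- Coefficient vector of a function of the input. -/
def coef (f : (Fin n → ℂ) → ℂ) : Fin n → ℂ := fun k => f (Pi.single k 1)

lemma coef_avail {l : List ((Fin n → ℂ) → ℂ)} {u : (Fin n → ℂ) → ℂ} (hu : Avail n l u) :
    VAvail (l.map coef) (coef u) := by
  rcases hu with hu | rfl | ⟨i, rfl⟩
  · exact Or.inl (List.mem_map_of_mem hu)
  · exact Or.inr (Or.inl rfl)
  · refine Or.inr (Or.inr ⟨i, ?_⟩)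
    funext k
    simp only [coef, Pi.single_apply]
    by_cases h : i = k
    · simp [h]
    · simp [h, Ne.symm h]

lemma coef_circuit {l : List ((Fin n → ℂ) → ℂ)} (hl : IsCircuit n l) : VCirc (l.map coef) := by
  induction hl with
  | nil => exact VCirc.nil
  | add l u v _ hu hv ih => exact VCirc.add _ _ _ ih (coef_avail hu) (coef_avail hv)
  | sub l u v _ hu hv ih => exact VCirc.sub _ _ _ ih (coef_avail hu) (coef_avail hv)
  | smul l u c _ hu ih => exact VCirc.smul _ _ c ih (coef_avail hu)

lemma coef_dftOut (j : Fin n) : coef (dftOut n j) = row (zeta n) (j : ℕ) := by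
  funext k
  simp only [coef, dftOut, row]
  rw [Finset.sum_eq_single k]
  · simp
  · intro b _ hb
    simp [hb]
  · simp

theorem circuit_bound (hn : 2 ≤ n) {l : List ((Fin n → ℂ) → ℂ)} (h : ComputesDFT n l) :
    3 * n ≤ l.length + n.divisors.card + 2 := by
  have hζ : IsPrimitiveRoot (zeta n) n := Complex.isPrimitiveRoot_exp n (by omega)
  have := vec_bound hn hζ (coef_circuit h.1) (fun j => by
    rw [← coef_dftOut]
    exact coef_avail (h.2 j))
  simpa using this

lemma avail_mono {l l' : List ((Fin n → ℂ) → ℂ)} {u : (Fin n → ℂ) → ℂ} (h : Avail n l u) :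
    Avail n (l' ++ l) u := by
  rcases h with h | h
  · exact Or.inl (List.mem_append_right _ h)
  · exact Or.inr h

/-- Any linear form can be appended to a circuit. -/
lemma extend_form (c : Fin n → ℂ) {l : List ((Fin n → ℂ) → ℂ)} (hl : IsCircuit n l) (s : Finset (Fin n)) :
    ∃ l', IsCircuit n (l' ++ l) ∧ Avail n (l' ++ l) (fun x => ∑ k ∈ s, c k * x k) := by
  classical
  induction s using Finset.induction_on with
  | empty => exact ⟨[], hl, Or.inr (Or.inl (by simp))⟩
  | insert a s ha ih =>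
    obtain ⟨l', h1, h2⟩ := ih
    have g1 : IsCircuit n ((fun x => c a * x a) :: (l' ++ l)) :=
      IsCircuit.smul _ (fun x => x a) (c a) h1 (Or.inr (Or.inr ⟨a, rfl⟩))
    have g2 := IsCircuit.add _ (fun x => c a * x a) (fun x => ∑ k ∈ s, c k * x k) g1
      (Or.inl List.mem_cons_self) (avail_mono (l' := [fun x => c a * x a]) h2)
    refine ⟨(fun x => c a * x a + ∑ k ∈ s, c k * x k) :: (fun x => c a * x a) :: l', g2, ?_⟩
    refine Or.inl ?_
    have : (fun x : Fin n → ℂ => ∑ k ∈ insert a s, c k * x k)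
        = fun x => c a * x a + ∑ k ∈ s, c k * x k := by
      funext x
      rw [Finset.sum_insert ha]
    rw [this]
    exact List.mem_cons_self

lemma exists_circuit (n : ℕ) : ∃ l, ComputesDFT n l := by
  classical
  have key : ∀ s : Finset (Fin n), ∃ l, IsCircuit n l ∧ ∀ j ∈ s, Avail n l (dftOut n j) := by
    intro s
    induction s using Finset.induction_on with
    | empty => exact ⟨[], IsCircuit.nil, by simp⟩
    | insert a s _ ih =>
      obtain ⟨l, h1, h2⟩ := ih
      obtain ⟨l', h3, h4⟩ := extend_form (fun k => zeta n ^ ((a : ℕ) * (k : ℕ))) h1 Finset.univ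
      refine ⟨l' ++ l, h3, ?_⟩
      intro j hj
      rcases Finset.mem_insert.mp hj with rfl | hj
      · exact h4
      · exact avail_mono (h2 j hj)
  obtain ⟨l, h1, h2⟩ := key Finset.univ
  exact ⟨l, h1, fun j => h2 j (Finset.mem_univ j)⟩

theorem L_bound (hn : 2 ≤ n) : 3 * n ≤ L n + n.divisors.card + 2 := by
  have hne : {m | ∃ l, ComputesDFT n l ∧ l.length = m}.Nonempty := by
    obtain ⟨l, hl⟩ := exists_circuit n
    exact ⟨l.length, l, hl, rfl⟩
  obtain ⟨l, hl, hlen⟩ := Nat.sInf_mem hne
  have := circuit_bound hn hl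
  unfold L
  omega

end Vale.Agent.Lib.P344
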