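import Mathlib

/-! Potential-function lower bound for linear straight-line programs, on coefficient vectors. -/

namespace Vale.Agent.Lib.P344

open Module

lemma finrank_sup_singleton_le {K V : Type*} [Field K] [AddCommGroup V] [Module K V]
    [FiniteDimensional K V] (W : Submodule K V) (v : V) :
    finrank K (W ⊔ Submodule.span K {v} : Submodule K V) ≤ finrank K W + 1 := by
  calc finrank K (W ⊔ Submodule.span K {v} : Submodule K V)
      ≤ finrank K W + finrank K (Submodule.span K {v}) :=
        Submodule.finrank_add_le_finrank_add_finrank _ _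
    _ ≤ finrank K W + 1 := by
        gcongr
        simpa using finrank_span_le_card (R := K) ({v} : Set V)

lemma finrank_le_inf_ker {K V F : Type*} [Field K] [AddCommGroup V] [Module K V]
    [FiniteDimensional K V] [AddCommGroup F] [Module K F] (W : Submodule K V) (ψ : V →ₗ[K] F)
    (w : F) (h : ∀ x ∈ W, ψ x ∈ Submodule.span K {w}) :
    finrank K W ≤ finrank K (W ⊓ LinearMap.ker ψ : Submodule K V) + 1 := by
  have h1 := LinearMap.finrank_range_add_finrank_ker (ψ.domRestrict W)
  have h2 : finrank K (LinearMap.range (ψ.domRestrict W)) ≤ 1 := by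
    have : LinearMap.range (ψ.domRestrict W) ≤ Submodule.span K {w} := by
      rintro _ ⟨x, rfl⟩
      exact h x.1 x.2
    calc _ ≤ finrank K (Submodule.span K {w}) := Submodule.finrank_mono this
      _ ≤ 1 := by simpa using finrank_span_le_card (R := K) ({w} : Set F)
  have h3 : finrank K (LinearMap.ker (ψ.domRestrict W))
      ≤ finrank K (W ⊓ LinearMap.ker ψ : Submodule K V) := by
    let g : LinearMap.ker (ψ.domRestrict W) →ₗ[K] (W ⊓ LinearMap.ker ψ : Submodule K V) :=
      { toFun := fun x => ⟨x.1.1, x.1.2, by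
            have h5 := LinearMap.mem_ker.mp x.2
            exact LinearMap.mem_ker.mpr h5⟩
        map_add' := fun _ _ => rfl
        map_smul' := fun _ _ => rfl }
    apply LinearMap.finrank_le_finrank_of_injective (f := g)
    intro x y hxy
    have : x.1.1 = y.1.1 := congrArg (fun z => z.1) hxy
    exact Subtype.ext (Subtype.ext this)
  omega

variable {n : ℕ}

/-- Values available: earlier gates, zero, unit vectors. -/
def VAvail (l : List (Fin n → ℂ)) (u : Fin n → ℂ) : Prop :=
  u ∈ l ∨ u = 0 ∨ ∃ i : Fin n, u = Pi.single i 1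

/-- Straight-line programs on coefficient vectors (most recent gate first). -/
inductive VCirc : List (Fin n → ℂ) → Prop
  | nil : VCirc []
  | add (l : List (Fin n → ℂ)) (u v : Fin n → ℂ) :
      VCirc l → VAvail l u → VAvail l v → VCirc ((u + v) :: l)
  | sub (l : List (Fin n → ℂ)) (u v : Fin n → ℂ) :
      VCirc l → VAvail l u → VAvail l v → VCirc ((u - v) :: l)
  | smul (l : List (Fin n → ℂ)) (u : Fin n → ℂ) (c : ℂ) :
      VCirc l → VAvail l u → VCirc ((c • u) :: l)

def Full (f : Fin n → ℂ) : Prop := ∀ k, f k ≠ 0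

def dvec (i j : Fin n) : Fin n → ℚ := Pi.single i 1 - Pi.single j 1

def Uset (l : List (Fin n → ℂ)) : Set (Fin n → ℚ) :=
  {d | ∃ f ∈ l, ∃ i j, f i ≠ 0 ∧ f j ≠ 0 ∧ d = dvec i j}

def U (l : List (Fin n → ℂ)) : Submodule ℚ (Fin n → ℚ) := Submodule.span ℚ (Uset l)

def B (l : List (Fin n → ℂ)) : Submodule ℂ (Fin n → ℂ) := Submodule.span ℂ {f | f ∈ l ∧ Full f}

/-- Evaluation of a complex linear form on rational vectors. -/
noncomputable def ev (f : Fin n → ℂ) : (Fin n → ℚ) →ₗ[ℚ] ℂ where
  toFun q := ∑ k, f k * (q k : ℂ)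
  map_add' q r := by
    simp only [Pi.add_apply, Rat.cast_add, mul_add, Finset.sum_add_distrib]
  map_smul' c q := by
    simp only [Pi.smul_apply, smul_eq_mul, Rat.cast_mul, RingHom.id_apply, Finset.smul_sum,
      Rat.smul_def]
    refine Finset.sum_congr rfl fun k _ => by ring

noncomputable def RatC : Submodule ℚ ℂ := Submodule.span ℚ {1}

lemma mem_RatC_cast (t : ℚ) : (t : ℂ) ∈ RatC := by
  have : (t : ℂ) = t • (1 : ℂ) := by simp [Rat.smul_def]
  rw [this]
  exact Submodule.smul_mem _ _ (Submodule.subset_span rfl)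

noncomputable def R (l : List (Fin n → ℂ)) : Submodule ℚ (Fin n → ℚ) where
  carrier := {q | ∀ f ∈ l, ev f q ∈ RatC}
  add_mem' := by
    intro a b ha hb f hf
    rw [map_add]
    exact Submodule.add_mem _ (ha f hf) (hb f hf)
  zero_mem' := by
    intro f _
    rw [map_zero]
    exact Submodule.zero_mem _
  smul_mem' := by
    intro c a ha f hf
    rw [map_smul]
    exact Submodule.smul_mem _ _ (ha f hf)

lemma mem_R {l : List (Fin n → ℂ)} {q : Fin n → ℚ} : q ∈ R l ↔ ∀ f ∈ l, ev f q ∈ RatC := Iff.rfl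

lemma ev_apply (f : Fin n → ℂ) (q : Fin n → ℚ) : ev f q = ∑ k, f k * (q k : ℂ) := rfl

lemma ev_avail {l : List (Fin n → ℂ)} {u : Fin n → ℂ} (hu : VAvail l u) {q : Fin n → ℚ}
    (hq : q ∈ R l) : ev u q ∈ RatC := by
  rcases hu with hu | rfl | ⟨i, rfl⟩
  · exact hq u hu
  · simp [ev_apply, Submodule.zero_mem]
  · have : ev (Pi.single i 1 : Fin n → ℂ) q = (q i : ℂ) := by
      rw [ev_apply, Finset.sum_eq_single i]
      · simp
      · intro b _ hb
        simp [Pi.single_apply, hb]
      · simp
    rw [this]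
    exact mem_RatC_cast _

lemma dvec_self (i : Fin n) : dvec i i = 0 := by simp [dvec]

lemma dvec_mem_U {l : List (Fin n → ℂ)} {u : Fin n → ℂ} (hu : VAvail l u) {i j : Fin n}
    (hi : u i ≠ 0) (hj : u j ≠ 0) : dvec i j ∈ U l := by
  rcases hu with hu | rfl | ⟨a, rfl⟩
  · exact Submodule.subset_span ⟨u, hu, i, j, hi, hj, rfl⟩
  · exact absurd rfl hi
  · have h1 : i = a := by
      by_contra h
      exact hi (by simp [Pi.single_apply, h])
    have h2 : j = a := by
      by_contra h
      exact hj (by simp [Pi.single_apply, h])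
    rw [h1, h2, dvec_self]
    exact Submodule.zero_mem _

lemma U_cons_le {l : List (Fin n → ℂ)} {w : Fin n → ℂ} {W : Submodule ℚ (Fin n → ℚ)}
    (h1 : U l ≤ W) (h2 : ∀ i j, w i ≠ 0 → w j ≠ 0 → dvec i j ∈ W) : U (w :: l) ≤ W := by
  refine Submodule.span_le.mpr ?_
  rintro d ⟨f, hf, i, j, hi, hj, rfl⟩
  rcases List.mem_cons.mp hf with rfl | hf
  · exact h2 i j hi hj
  · exact h1 (Submodule.subset_span ⟨f, hf, i, j, hi, hj, rfl⟩)

lemma dvec_sub (i j a : Fin n) : dvec i j = dvec i a - dvec j a := by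
  simp [dvec]

lemma U_step_add {l : List (Fin n → ℂ)} {u v w : Fin n → ℂ} (hu : VAvail l u) (hv : VAvail l v)
    (hw : ∀ k, w k ≠ 0 → u k ≠ 0 ∨ v k ≠ 0) :
    finrank ℚ (U (w :: l)) ≤ finrank ℚ (U l) + 1 := by
  by_cases hua : ∃ a, u a ≠ 0
  · by_cases hvb : ∃ b, v b ≠ 0
    · obtain ⟨a, ha⟩ := hua
      obtain ⟨b, hb⟩ := hvb
      refine le_trans (Submodule.finrank_mono ?_) (finrank_sup_singleton_le (U l) (dvec b a))
      have key : ∀ i, w i ≠ 0 → dvec i a ∈ U l ⊔ Submodule.span ℚ {dvec b a} := by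
        intro i hi
        rcases hw i hi with h | h
        · exact Submodule.mem_sup_left (dvec_mem_U hu h ha)
        · have : dvec i a = dvec i b + dvec b a := by simp [dvec]
          rw [this]
          exact Submodule.add_mem _ (Submodule.mem_sup_left (dvec_mem_U hv h hb))
            (Submodule.mem_sup_right (Submodule.subset_span rfl))
      refine U_cons_le le_sup_left ?_
      intro i j hi hj
      rw [dvec_sub i j a]
      exact Submodule.sub_mem _ (key i hi) (key j hj)
    · push Not at hvb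
      refine le_trans (Submodule.finrank_mono ?_) (Nat.le_succ _)
      refine U_cons_le le_rfl ?_
      intro i j hi hj
      have h1 : u i ≠ 0 := (hw i hi).resolve_right (fun h => h (hvb i))
      have h2 : u j ≠ 0 := (hw j hj).resolve_right (fun h => h (hvb j))
      exact dvec_mem_U hu h1 h2
  · push Not at hua
    refine le_trans (Submodule.finrank_mono ?_) (Nat.le_succ _)
    refine U_cons_le le_rfl ?_
    intro i j hi hj
    have h1 : v i ≠ 0 := (hw i hi).resolve_left (fun h => h (hua i))
    have h2 : v j ≠ 0 := (hw j hj).resolve_left (fun h => h (hua j))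
    exact dvec_mem_U hv h1 h2

lemma U_step_full {l : List (Fin n → ℂ)} {w f : Fin n → ℂ} (hf : f ∈ l) (hfull : Full f) :
    finrank ℚ (U (w :: l)) ≤ finrank ℚ (U l) := by
  refine Submodule.finrank_mono ?_
  refine U_cons_le le_rfl ?_
  intro i j _ _
  exact Submodule.subset_span ⟨f, hf, i, j, hfull i, hfull j, rfl⟩

lemma U_step_smul {l : List (Fin n → ℂ)} {u : Fin n → ℂ} (c : ℂ) (hu : VAvail l u) :
    finrank ℚ (U ((c • u) :: l)) ≤ finrank ℚ (U l) := by
  refine Submodule.finrank_mono ?_
  refine U_cons_le le_rfl ?_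
  intro i j hi hj
  have h1 : u i ≠ 0 := by
    intro h
    exact hi (by simp [h])
  have h2 : u j ≠ 0 := by
    intro h
    exact hj (by simp [h])
  exact dvec_mem_U hu h1 h2

lemma B_cons_le {l : List (Fin n → ℂ)} {w : Fin n → ℂ} {W : Submodule ℂ (Fin n → ℂ)}
    (h1 : B l ≤ W) (h2 : Full w → w ∈ W) : B (w :: l) ≤ W := by
  refine Submodule.span_le.mpr ?_
  rintro f ⟨hf, hfull⟩
  rcases List.mem_cons.mp hf with rfl | hf
  · exact h2 hfull
  · exact h1 (Submodule.subset_span ⟨hf, hfull⟩)

lemma B_step (l : List (Fin n → ℂ)) (w : Fin n → ℂ) :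
    finrank ℂ (B (w :: l)) ≤ finrank ℂ (B l) + 1 := by
  refine le_trans (Submodule.finrank_mono ?_) (finrank_sup_singleton_le (B l) w)
  exact B_cons_le le_sup_left (fun _ => Submodule.mem_sup_right (Submodule.subset_span rfl))

lemma B_step_notfull {l : List (Fin n → ℂ)} {w : Fin n → ℂ} (hw : ¬ Full w) :
    finrank ℂ (B (w :: l)) ≤ finrank ℂ (B l) :=
  Submodule.finrank_mono (B_cons_le le_rfl (fun h => absurd h hw))

lemma full_avail_mem (hn : 2 ≤ n) {l : List (Fin n → ℂ)} {u : Fin n → ℂ} (hu : VAvail l u)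
    (hfull : Full u) : u ∈ l := by
  rcases hu with hu | rfl | ⟨i, rfl⟩
  · exact hu
  · exact absurd rfl (hfull ⟨0, by omega⟩)
  · exfalso
    by_cases h : i = ⟨0, by omega⟩
    · apply hfull ⟨1, by omega⟩
      rw [h]
      simp [Pi.single_apply, Fin.ext_iff]
    · apply hfull ⟨0, by omega⟩
      simp [Pi.single_apply, Ne.symm h]

lemma full_of_smul {u : Fin n → ℂ} {c : ℂ} (h : Full (c • u)) : Full u := by
  intro k hk
  exact h k (by simp [hk])

lemma B_step_smul (hn : 2 ≤ n) {l : List (Fin n → ℂ)} {u : Fin n → ℂ} (c : ℂ)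
    (hu : VAvail l u) : finrank ℂ (B ((c • u) :: l)) ≤ finrank ℂ (B l) := by
  refine Submodule.finrank_mono (B_cons_le le_rfl ?_)
  intro h
  have h1 := full_of_smul h
  exact Submodule.smul_mem _ _ (Submodule.subset_span ⟨full_avail_mem hn hu h1, h1⟩)

lemma R_cons_ge {l : List (Fin n → ℂ)} {w : Fin n → ℂ}
    (h : ∀ q ∈ R l, ev w q ∈ RatC) : finrank ℚ (R l) ≤ finrank ℚ (R (w :: l)) := by
  refine Submodule.finrank_mono ?_
  intro q hq f hf
  rcases List.mem_cons.mp hf with rfl | hf
  · exact h q hq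
  · exact hq f hf

lemma ev_add (u v : Fin n → ℂ) (q : Fin n → ℚ) : ev (u + v) q = ev u q + ev v q := by
  simp [ev_apply, add_mul, Finset.sum_add_distrib]

lemma ev_sub (u v : Fin n → ℂ) (q : Fin n → ℚ) : ev (u - v) q = ev u q - ev v q := by
  simp [ev_apply, sub_mul, Finset.sum_sub_distrib]

lemma ev_smul (c : ℂ) (u : Fin n → ℂ) (q : Fin n → ℚ) : ev (c • u) q = c * ev u q := by
  simp [ev_apply, Finset.mul_sum, mul_assoc]

lemma R_step_smul {l : List (Fin n → ℂ)} {u : Fin n → ℂ} (c : ℂ) (hu : VAvail l u) :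
    finrank ℚ (R l) ≤ finrank ℚ (R ((c • u) :: l)) + 1 := by
  refine le_trans (finrank_le_inf_ker (R l) (ev u) 1 (fun q hq => ev_avail hu hq)) ?_
  gcongr
  refine Submodule.finrank_mono ?_
  rintro q ⟨hq, hk⟩ f hf
  rcases List.mem_cons.mp hf with rfl | hf
  · have : ev u q = 0 := hk
    rw [ev_smul, this, mul_zero]
    exact Submodule.zero_mem _
  · exact hq f hf

open Classical in
/-- The main invariant. -/
theorem invariant (hn : 2 ≤ n) {l : List (Fin n → ℂ)} (hl : VCirc l) :
    finrank ℚ (U l) + finrank ℂ (B l) + n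
      ≤ l.length + finrank ℚ (R l) + (if ∃ f ∈ l, Full f then 1 else 0) := by
  have addlike : ∀ (l : List (Fin n → ℂ)) (u v w : Fin n → ℂ), VAvail l u → VAvail l v →
      (∀ k, w k ≠ 0 → u k ≠ 0 ∨ v k ≠ 0) → (∀ q ∈ R l, ev w q ∈ RatC) →
      finrank ℚ (U l) + finrank ℂ (B l) + n
        ≤ l.length + finrank ℚ (R l) + (if ∃ f ∈ l, Full f then 1 else 0) →
      finrank ℚ (U (w :: l)) + finrank ℂ (B (w :: l)) + n
        ≤ (w :: l).length + finrank ℚ (R (w :: l))
          + (if ∃ f ∈ w :: l, Full f then 1 else 0) := by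
    intro l u v w hu hv hw hR ih
    have hr := R_cons_ge hR
    rw [List.length_cons]
    by_cases hfw : Full w
    · have hex : ∃ f ∈ w :: l, Full f := ⟨w, List.mem_cons_self, hfw⟩
      rw [if_pos hex]
      have hb := B_step l w
      by_cases hfl : ∃ f ∈ l, Full f
      · rw [if_pos hfl] at ih
        obtain ⟨f, hf, hff⟩ := hfl
        have ha := U_step_full (w := w) hf hff
        omega
      · rw [if_neg hfl] at ih
        have ha := U_step_add hu hv hw
        omega
    · have hb := B_step_notfull (l := l) hfw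
      have ha := U_step_add hu hv hw
      have hiff : (∃ f ∈ w :: l, Full f) ↔ ∃ f ∈ l, Full f := by
        constructor
        · rintro ⟨f, hf, hff⟩
          rcases List.mem_cons.mp hf with rfl | hf
          · exact absurd hff hfw
          · exact ⟨f, hf, hff⟩
        · rintro ⟨f, hf, hff⟩
          exact ⟨f, List.mem_cons_of_mem _ hf, hff⟩
      by_cases hfl : ∃ f ∈ l, Full f
      · rw [if_pos hfl] at ih
        rw [if_pos (hiff.mpr hfl)]
        omega
      · rw [if_neg hfl] at ih
        rw [if_neg (fun h => hfl (hiff.mp h))]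
        omega
  induction hl with
  | nil =>
    have h1 : U ([] : List (Fin n → ℂ)) = ⊥ := by
      refine Submodule.span_eq_bot.mpr ?_
      rintro d ⟨f, hf, _⟩
      exact absurd hf (List.not_mem_nil)
    have h2 : B ([] : List (Fin n → ℂ)) = ⊥ := by
      refine Submodule.span_eq_bot.mpr ?_
      rintro d ⟨hf, _⟩
      exact absurd hf (List.not_mem_nil)
    have h3 : R ([] : List (Fin n → ℂ)) = ⊤ := by
      refine eq_top_iff.mpr ?_
      intro q _ f hf
      exact absurd hf (List.not_mem_nil)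
    rw [h1, h2, h3]
    simp
  | add l u v _ hu hv ih =>
    refine addlike l u v (u + v) hu hv ?_ ?_ ih
    · intro k hk
      by_contra h
      push Not at h
      exact hk (by simp [h.1, h.2])
    · intro q hq
      rw [ev_add]
      exact Submodule.add_mem _ (ev_avail hu hq) (ev_avail hv hq)
  | sub l u v _ hu hv ih =>
    refine addlike l u v (u - v) hu hv ?_ ?_ ih
    · intro k hk
      by_contra h
      push Not at h
      exact hk (by simp [h.1, h.2])
    · intro q hq
      rw [ev_sub]
      exact Submodule.sub_mem _ (ev_avail hu hq) (ev_avail hv hq)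
  | smul l u c _ hu ih =>
    have ha := U_step_smul c hu
    have hb := B_step_smul hn c hu
    have hr := R_step_smul c hu
    have hiff : (∃ f ∈ (c • u) :: l, Full f) ↔ ∃ f ∈ l, Full f := by
      constructor
      · rintro ⟨f, hf, hff⟩
        rcases List.mem_cons.mp hf with rfl | hf
        · exact ⟨u, full_avail_mem hn hu (full_of_smul hff), full_of_smul hff⟩
        · exact ⟨f, hf, hff⟩
      · rintro ⟨f, hf, hff⟩
        exact ⟨f, List.mem_cons_of_mem _ hf, hff⟩
    rw [List.length_cons]
    by_cases hfl : ∃ f ∈ l, Full f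
    · rw [if_pos hfl] at ih
      rw [if_pos (hiff.mpr hfl)]
      omega
    · rw [if_neg hfl] at ih
      rw [if_neg (fun h => hfl (hiff.mp h))]
      omega

end Vale.Agent.Lib.P344
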