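import Mathlib

/-! Linear circuits (as straight-line programs) and the gate complexity of the DFT. -/

namespace Vale.Agent.Lib.P344

/-- `zeta n = exp (2 π i / n)`. -/
noncomputable def zeta (n : ℕ) : ℂ := Complex.exp (2 * Real.pi * Complex.I / n)

/-- The `j`-th coordinate of `F_n x`, as a function of the input vector `x`. -/
noncomputable def dftOut (n : ℕ) (j : Fin n) : (Fin n → ℂ) → ℂ :=
  fun x => ∑ k : Fin n, zeta n ^ ((j : ℕ) * (k : ℕ)) * x k

/-- A value is available after the gates in `l` if it is the value of one of these gates,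
the constant `0`, or one of the inputs. -/
def Avail (n : ℕ) (l : List ((Fin n → ℂ) → ℂ)) (u : (Fin n → ℂ) → ℂ) : Prop :=
  u ∈ l ∨ (u = fun _ => 0) ∨ ∃ i : Fin n, u = fun x => x i

/-- `IsCircuit n l`: `l` lists (most recent first) the values, as functions of the input, of the
successive gates of a linear circuit; each gate is `u + v`, `u - v` or `c * u` for previously
available values `u`, `v` and a fixed complex scalar `c`. -/
inductive IsCircuit (n : ℕ) : List ((Fin n → ℂ) → ℂ) → Prop
  | nil : IsCircuit n []
  | add (l : List ((Fin n → ℂ) → ℂ)) (u v : (Fin n → ℂ) → ℂ) :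
      IsCircuit n l → Avail n l u → Avail n l v → IsCircuit n ((fun x => u x + v x) :: l)
  | sub (l : List ((Fin n → ℂ) → ℂ)) (u v : (Fin n → ℂ) → ℂ) :
      IsCircuit n l → Avail n l u → Avail n l v → IsCircuit n ((fun x => u x - v x) :: l)
  | smul (l : List ((Fin n → ℂ) → ℂ)) (u : (Fin n → ℂ) → ℂ) (c : ℂ) :
      IsCircuit n l → Avail n l u → IsCircuit n ((fun x => c * u x) :: l)

/-- The circuit `l` computes `F_n`: every coordinate of `F_n x` is an available value. -/
def ComputesDFT (n : ℕ) (l : List ((Fin n → ℂ) → ℂ)) : Prop :=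
  IsCircuit n l ∧ ∀ j : Fin n, Avail n l (dftOut n j)

/-- `L n`: the least number of gates of a linear circuit computing `F_n`. -/
noncomputable def L (n : ℕ) : ℕ := sInf {m | ∃ l, ComputesDFT n l ∧ l.length = m}

end Vale.Agent.Lib.P344
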